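import Vale.Agent.P231.Facts

/-!
Means over a period: shifts, differentiation, and symmetries of the mean log-density.
-/

namespace Vale.Agent.P231

open Matrix Real Set MeasureTheory Filter Topology

variable {n l k : ℕ}

theorem mean_shift {f : ℝ → ℝ} (hf : Function.Periodic f π) (c : ℝ) :
    mean (fun x => f (x + c)) = mean f := by
  unfold mean
  congr 1
  rw [intervalIntegral.integral_comp_add_right, zero_add, add_comm π c]
  simpa using hf.intervalIntegral_add_eq c 0

theorem mean_const (c : ℝ) : mean (fun _ => c) = c := by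
  simp [mean, pi_pos.ne']

theorem mean_add {f g : ℝ → ℝ} (hf : Continuous f) (hg : Continuous g) :
    mean (fun x => f x + g x) = mean f + mean g := by
  simp only [mean]
  rw [intervalIntegral.integral_add (hf.intervalIntegrable _ _) (hg.intervalIntegrable _ _),
    add_div]

theorem mean_sub {f g : ℝ → ℝ} (hf : Continuous f) (hg : Continuous g) :
    mean (fun x => f x - g x) = mean f - mean g := by
  simp only [mean]
  rw [intervalIntegral.integral_sub (hf.intervalIntegrable _ _) (hg.intervalIntegrable _ _),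
    sub_div]

theorem mean_const_mul (c : ℝ) (f : ℝ → ℝ) : mean (fun x => c * f x) = c * mean f := by
  simp only [mean]
  rw [intervalIntegral.integral_const_mul, mul_div_assoc]

theorem mean_neg (f : ℝ → ℝ) : mean (fun x => -f x) = -mean f := by
  simp only [mean]
  rw [intervalIntegral.integral_neg, neg_div]

theorem mean_mono {f g : ℝ → ℝ} (hf : Continuous f) (hg : Continuous g) (h : ∀ x, f x ≤ g x) :
    mean f ≤ mean g := by
  unfold mean
  exact div_le_div_of_nonneg_right (intervalIntegral.integral_mono pi_pos.le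
    (hf.intervalIntegrable _ _) (hg.intervalIntegrable _ _) h) pi_pos.le

theorem abs_mean_le {f : ℝ → ℝ} {C : ℝ} (h : ∀ x ∈ Icc (0 : ℝ) π, |f x| ≤ C) : |mean f| ≤ C := by
  have hpi := pi_pos
  unfold mean
  rw [abs_div, abs_of_pos hpi, div_le_iff₀ hpi]
  have := intervalIntegral.norm_integral_le_of_norm_le_const (a := (0 : ℝ)) (b := π) (f := f)
    (C := C) (fun x hx => by
      rw [uIoc_of_le hpi.le] at hx
      exact h x ⟨hx.1.le, hx.2⟩)
  simpa [abs_of_pos hpi] using this

theorem hasDerivAt_mean {f f' : ℝ → ℝ → ℝ} {t₀ δ : ℝ} (hδ : 0 < δ)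
    (hf : ∀ t ∈ Metric.closedBall t₀ δ, Continuous fun x => f x t)
    (hf' : ContinuousOn (Function.uncurry f') (univ ×ˢ Metric.closedBall t₀ δ))
    (hd : ∀ x, ∀ t ∈ Metric.closedBall t₀ δ, HasDerivAt (f x) (f' x t) t) :
    HasDerivAt (fun t => mean fun x => f x t) (mean fun x => f' x t₀) t₀ := by
  unfold mean
  apply HasDerivAt.div_const
  obtain ⟨B, hB⟩ := (isCompact_Icc.prod (isCompact_closedBall t₀ δ)).exists_bound_of_continuousOn
    (hf'.mono (prod_mono (subset_univ (Icc (0 : ℝ) π)) subset_rfl))
  refine (intervalIntegral.hasDerivAt_integral_of_dominated_loc_of_deriv_le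
    (bound := fun _ => B) (Metric.ball_mem_nhds t₀ hδ) (F := fun t x => f x t)
    (F' := fun t x => f' x t) ?_ ?_ ?_ ?_ ?_ ?_).2
  · filter_upwards [Metric.closedBall_mem_nhds t₀ hδ] with t ht
    exact (hf t ht).aestronglyMeasurable
  · exact (hf t₀ (Metric.mem_closedBall_self hδ.le)).intervalIntegrable _ _
  · have : Continuous fun x => f' x t₀ :=
      hf'.comp_continuous (continuous_id.prodMk continuous_const) fun x =>
        ⟨mem_univ _, Metric.mem_closedBall_self hδ.le⟩
    exact this.aestronglyMeasurable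
  · refine Eventually.of_forall fun x hx t ht => ?_
    rw [uIoc_of_le pi_pos.le] at hx
    exact hB (x, t) ⟨⟨hx.1.le, hx.2⟩, Metric.ball_subset_closedBall ht⟩
  · exact intervalIntegrable_const
  · exact Eventually.of_forall fun x _ t ht => hd x t (Metric.ball_subset_closedBall ht)

/-- Lags at which no Jacobi solution degenerates. -/
def Good : Set ℝ := {t | t ≠ 0 ∧ |t| < π ∧ |t| ≠ π / 2}

theorem isOpen_good : IsOpen Good := by
  unfold Good
  exact (isOpen_ne_fun continuous_id continuous_const).inter
    ((isOpen_lt continuous_abs continuous_const).inter (isOpen_ne_fun continuous_abs continuous_const))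

theorem good_of_pos {t : ℝ} (h1 : 0 < t) (h2 : t < π / 2) : t ∈ Good :=
  ⟨h1.ne', by rw [abs_of_pos h1]; linarith, by rw [abs_of_pos h1]; exact h2.ne⟩

theorem good_neg {t : ℝ} (h : t ∈ Good) : -t ∈ Good :=
  ⟨neg_ne_zero.2 h.1, by rw [abs_neg]; exact h.2.1, by rw [abs_neg]; exact h.2.2⟩

theorem good_pi_sub {t : ℝ} (h1 : 0 < t) (h2 : t < π / 2) : π - t ∈ Good := by
  have : |π - t| = π - t := abs_of_pos (by linarith [pi_pos])
  exact ⟨(sub_pos.2 (by linarith [pi_pos])).ne', by rw [this]; linarith,
    by rw [this]; exact (show π / 2 < π - t by linarith).ne'⟩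

theorem det_Q_sq (S : JacobiSystem l k) : S.Q.det * S.Q.det = 1 := by
  have := congrArg Matrix.det S.Q_orth
  rwa [det_mul, det_transpose, det_one] at this

theorem Q_orth' (S : JacobiSystem l k) : S.Q * S.Qᵀ = 1 := mul_eq_one_comm.1 S.Q_orth

theorem det_conj_hol (S : JacobiSystem l k) (M : Mat (l + k)) : (S.Q * M * S.Qᵀ).det = M.det := by
  rw [det_mul, det_mul, det_transpose]
  linear_combination M.det * det_Q_sq S

theorem trace_conj_hol (S : JacobiSystem l k) (M : Mat (l + k)) : (S.Q * M * S.Qᵀ).trace = M.trace := by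
  rw [trace_mul_comm, ← Matrix.mul_assoc, S.Q_orth, Matrix.one_mul]

theorem inv_conj (S : JacobiSystem l k) (M : Mat (l + k)) :
    (S.Q * M * S.Qᵀ)⁻¹ = S.Q * M⁻¹ * S.Qᵀ := by
  rw [Matrix.mul_inv_rev, Matrix.mul_inv_rev, Matrix.inv_eq_left_inv S.Q_orth,
    Matrix.inv_eq_left_inv (Q_orth' S)]
  rw [Matrix.mul_assoc]

theorem gram_conj (S : JacobiSystem l k) (M : Mat (l + k)) :
    (S.Q * M * S.Qᵀ)ᵀ * (S.Q * M * S.Qᵀ) = S.Q * (Mᵀ * M) * S.Qᵀ := by
  simp only [transpose_mul, transpose_transpose, Matrix.mul_assoc]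
  rw [← Matrix.mul_assoc S.Qᵀ S.Q, S.Q_orth, Matrix.one_mul]

theorem conj_mul (S : JacobiSystem l k) (M N : Mat (l + k)) :
    S.Q * M * S.Qᵀ * (S.Q * N * S.Qᵀ) = S.Q * (M * N) * S.Qᵀ := by
  simp only [Matrix.mul_assoc]
  rw [← Matrix.mul_assoc S.Qᵀ S.Q, S.Q_orth, Matrix.one_mul]

theorem conj_one_hol (S : JacobiSystem l k) : S.Q * (1 : Mat (l + k)) * S.Qᵀ = 1 := by
  rw [Matrix.mul_one, Q_orth' S]

theorem logGram_conj (S : JacobiSystem l k) (P M : Mat (l + k)) :
    logGram (S.Q * P * S.Qᵀ) (S.Q * M * S.Qᵀ) = logGram P M := by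
  unfold logGram
  rw [gram_conj, conj_mul, conj_mul]
  have : (1 : Mat (l + k)) - S.Q * P * S.Qᵀ = S.Q * (1 - P) * S.Qᵀ := by
    rw [Matrix.mul_sub, Matrix.sub_mul, conj_one_hol]
  rw [this, ← Matrix.add_mul, ← Matrix.mul_add, det_conj_hol]

theorem logCof_conj (S : JacobiSystem l k) (P M : Mat (l + k)) :
    logCof (S.Q * P * S.Qᵀ) (S.Q * M * S.Qᵀ) = logCof P M := by
  unfold logCof
  rw [gram_conj, ← Matrix.add_mul, ← Matrix.mul_add, det_conj_hol]

variable {S : JacobiSystem l k}

theorem periodic_logAbsDet (F : JacobiFacts S) (c : ℝ) :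
    Function.Periodic (fun x => logAbsDet (S.A x (x + c))) π := fun x => by
  show logAbsDet (S.A (x + π) (x + π + c)) = logAbsDet (S.A x (x + c))
  rw [show x + π + c = x + c + π by ring, F.periodic_A, logAbsDet, det_conj_hol, ← logAbsDet]

theorem periodic_invGram (F : JacobiFacts S) (c : ℝ) :
    Function.Periodic (fun x => invGram (S.A x (x + c))) π := fun x => by
  show invGram (S.A (x + π) (x + π + c)) = invGram (S.A x (x + c))
  rw [show x + π + c = x + c + π by ring, F.periodic_A, invGram, gram_conj, inv_conj, trace_conj_hol,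
    ← invGram]

theorem ricc_add_pi (F : JacobiFacts S) (b y : ℝ) :
    ricc S (b + π) (y + π) = S.Q * ricc S b y * S.Qᵀ := by
  rw [ricc, F.periodic_A, F.periodic_A', inv_conj, conj_mul, ← ricc]

theorem periodic_ricc (F : JacobiFacts S) (c : ℝ) :
    Function.Periodic (fun x => (ricc S x (x + c)).trace) π := fun x => by
  show (ricc S (x + π) (x + π + c)).trace = (ricc S x (x + c)).trace
  rw [show x + π + c = x + c + π by ring, ricc_add_pi F, trace_conj_hol]

theorem periodic_logGram (F : JacobiFacts S) (K : KernelFacts S) (c : ℝ) :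
    Function.Periodic (fun x => logGram (kerProj S x) (S.A x (x + c))) π := fun x => by
  show logGram (kerProj S (x + π)) (S.A (x + π) (x + π + c)) = _
  rw [show x + π + c = x + c + π by ring, F.periodic_A, K.periodic, logGram_conj]

theorem periodic_logCof (F : JacobiFacts S) (K : KernelFacts S) :
    Function.Periodic (fun x => logCof (kerProj S x) (S.A x (x + π / 2))) π := fun x => by
  show logCof (kerProj S (x + π)) (S.A (x + π) (x + π + π / 2)) = _
  rw [show x + π + π / 2 = x + π / 2 + π by ring, F.periodic_A, K.periodic, logCof_conj]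

theorem det_ne_lag (F : JacobiFacts S) {b y : ℝ} (h : y - b ∈ Good) : (S.A b y).det ≠ 0 := by
  have := F.det_ne b (y - b) h.1 h.2.1 h.2.2
  rwa [add_sub_cancel] at this

theorem continuousAt_logAbsDet (F : JacobiFacts S) {p : ℝ × ℝ} (h : (S.A p.1 p.2).det ≠ 0) :
    ContinuousAt (fun p : ℝ × ℝ => logAbsDet (S.A p.1 p.2)) p :=
  ((continuous_id.matrix_det.comp F.cont_A).abs.continuousAt).log (abs_ne_zero.2 h)

theorem continuousAt_ricc_hol (F : JacobiFacts S) {p : ℝ × ℝ} (h : (S.A p.1 p.2).det ≠ 0) :
    ContinuousAt (fun p : ℝ × ℝ => ricc S p.1 p.2) p := by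
  have h1 : ContinuousAt (fun p : ℝ × ℝ => (S.A p.1 p.2)⁻¹) p := by
    apply (continuousAt_matrix_inv _ ?_).comp F.cont_A.continuousAt
    rw [Ring.inverse_eq_inv']
    exact continuousAt_inv₀ h
  exact (continuous_fst.matrix_mul continuous_snd).continuousAt.comp
    (F.cont_A'.continuousAt.prodMk h1)

theorem continuousAt_invGram (F : JacobiFacts S) {p : ℝ × ℝ} (h : (S.A p.1 p.2).det ≠ 0) :
    ContinuousAt (fun p : ℝ × ℝ => invGram (S.A p.1 p.2)) p := by
  have h1 : ContinuousAt (fun p : ℝ × ℝ => ((S.A p.1 p.2)ᵀ * S.A p.1 p.2)⁻¹) p := by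
    apply ContinuousAt.comp (g := fun M : Mat (l + k) => M⁻¹) ?_
      (F.cont_A.matrix_transpose.matrix_mul F.cont_A).continuousAt
    apply continuousAt_matrix_inv
    rw [Ring.inverse_eq_inv']
    apply continuousAt_inv₀
    rw [det_mul, det_transpose]
    exact mul_ne_zero h h
  exact (continuous_id.matrix_trace).continuousAt.comp h1

theorem continuous_logAbsDet_line (F : JacobiFacts S) {t : ℝ} (ht : t ∈ Good) :
    Continuous fun x => logAbsDet (S.A x (x + t)) := continuous_iff_continuousAt.2 fun x =>
  ContinuousAt.comp (g := fun p : ℝ × ℝ => logAbsDet (S.A p.1 p.2))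
    (f := fun x => (x, x + t)) (continuousAt_logAbsDet F (det_ne_lag F (by simpa using ht)))
    (by fun_prop)

theorem continuous_ricc_line (F : JacobiFacts S) {t : ℝ} (ht : t ∈ Good) :
    Continuous fun x => (ricc S x (x + t)).trace := continuous_iff_continuousAt.2 fun x =>
  (continuous_id.matrix_trace).continuousAt.comp
    (ContinuousAt.comp (g := fun p : ℝ × ℝ => ricc S p.1 p.2) (f := fun x => (x, x + t))
      (continuousAt_ricc_hol F (det_ne_lag F (by simpa using ht))) (by fun_prop))

theorem continuous_invGram_line (F : JacobiFacts S) {t : ℝ} (ht : t ∈ Good) :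
    Continuous fun x => invGram (S.A x (x + t)) := continuous_iff_continuousAt.2 fun x =>
  ContinuousAt.comp (g := fun p : ℝ × ℝ => invGram (S.A p.1 p.2))
    (f := fun x => (x, x + t)) (continuousAt_invGram F (det_ne_lag F (by simpa using ht)))
    (by fun_prop)

theorem hasDerivAt_meanLog (F : JacobiFacts S) {t : ℝ} (ht : t ∈ Good) :
    HasDerivAt (meanLog S) (meanRicc S t) t := by
  obtain ⟨δ, hδ, hsub⟩ := Metric.nhds_basis_closedBall.mem_iff.1 (isOpen_good.mem_nhds ht)
  refine hasDerivAt_mean (f := fun x t => logAbsDet (S.A x (x + t)))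
    (f' := fun x t => (ricc S x (x + t)).trace) hδ
    (fun s hs => continuous_logAbsDet_line F (hsub hs)) ?_ ?_
  · intro p hp
    exact ((continuous_id.matrix_trace).continuousAt.comp
      (ContinuousAt.comp (g := fun p : ℝ × ℝ => ricc S p.1 p.2)
        (f := fun p : ℝ × ℝ => (p.1, p.1 + p.2))
        (continuousAt_ricc_hol F (det_ne_lag F (by simpa using hsub hp.2)))
        (by fun_prop))).continuousWithinAt
  · intro x s hs
    exact (F.deriv_logAbsDet x (x + s) (det_ne_lag F (by simpa using hsub hs))).comp_const_add x s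

theorem hasDerivAt_meanRicc (F : JacobiFacts S) {t : ℝ} (ht : t ∈ Good) :
    HasDerivAt (meanRicc S) (-meanInv S t) t := by
  obtain ⟨δ, hδ, hsub⟩ := Metric.nhds_basis_closedBall.mem_iff.1 (isOpen_good.mem_nhds ht)
  have e1 : (fun s => mean fun x => (ricc S (x - s) x).trace) = meanRicc S := by
    funext s
    rw [meanRicc, ← mean_shift (periodic_ricc F s) (-s)]
    congr 1; funext x
    rw [show x + -s + s = x by ring, sub_eq_add_neg]
  have e2 : (mean fun x => -invGram (S.A (x - t) x)) = -meanInv S t := by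
    rw [mean_neg, meanInv, ← mean_shift (periodic_invGram F t) (-t)]
    congr 2; funext x
    rw [show x + -t + t = x by ring, sub_eq_add_neg]
  rw [← e1, ← e2]
  refine hasDerivAt_mean (f := fun x t => (ricc S (x - t) x).trace)
    (f' := fun x t => -invGram (S.A (x - t) x)) hδ ?_ ?_ ?_
  · intro s hs
    exact continuous_iff_continuousAt.2 fun x => (continuous_id.matrix_trace).continuousAt.comp
      (ContinuousAt.comp (g := fun p : ℝ × ℝ => ricc S p.1 p.2) (f := fun x => (x - s, x))
        (continuousAt_ricc_hol F (det_ne_lag F (by simpa using hsub hs))) (by fun_prop))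
  · intro p hp
    exact ((ContinuousAt.comp (g := fun p : ℝ × ℝ => invGram (S.A p.1 p.2))
        (f := fun p : ℝ × ℝ => (p.1 - p.2, p.1))
        (continuousAt_invGram F (det_ne_lag F (by simpa using hsub hp.2)))
        (by fun_prop)).neg).continuousWithinAt
  · intro x s hs
    have := (F.deriv_ricc (x - s) x (det_ne_lag F (by simpa using hsub hs))).comp s
      ((hasDerivAt_id s).const_sub x)
    simpa [Function.comp_def] using this

theorem logAbsDet_neg_transpose (M : Mat n) : logAbsDet (-Mᵀ) = logAbsDet M := by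
  simp [logAbsDet, det_neg, abs_mul]

theorem invGram_neg_transpose (M : Mat n) : invGram (-Mᵀ) = invGram M := by
  simp only [invGram, transpose_neg, transpose_transpose, neg_mul_neg, Matrix.mul_inv_rev,
    ← transpose_nonsing_inv]
  rw [trace_mul_comm]

theorem meanLog_neg (F : JacobiFacts S) (t : ℝ) : meanLog S (-t) = meanLog S t := by
  rw [meanLog, meanLog, ← mean_shift (periodic_logAbsDet F t) (-t)]
  congr 1; funext x
  rw [show x + -t + t = x by ring, F.swap (x + -t) x, logAbsDet_neg_transpose]

theorem meanInv_neg (F : JacobiFacts S) (t : ℝ) : meanInv S (-t) = meanInv S t := by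
  rw [meanInv, meanInv, ← mean_shift (periodic_invGram F t) (-t)]
  congr 1; funext x
  rw [show x + -t + t = x by ring, F.swap (x + -t) x, invGram_neg_transpose]

theorem meanRicc_neg (F : JacobiFacts S) {t : ℝ} (ht : t ∈ Good) :
    meanRicc S (-t) = -meanRicc S t := by
  have h1 := (hasDerivAt_meanLog F (good_neg ht)).comp t (hasDerivAt_neg t)
  have h2 : meanLog S ∘ Neg.neg = meanLog S := funext fun s => meanLog_neg F s
  rw [h2] at h1
  have := h1.unique (hasDerivAt_meanLog F ht)
  linarith

theorem meanLog_pi_sub (F : JacobiFacts S) {t : ℝ} (h1 : 0 < t) (h2 : t < π / 2) :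
    meanLog S (π - t) = meanLog S t := by
  have hpi := pi_pos
  have key : ∀ s, s ∈ Good → s + π ∈ Good →
      meanLog S (s + π) = meanLog S s + mean (fun x => logAbsDet (S.A' (x - π) x)) := by
    intro s hs hs'
    have hzero : ∀ x, S.A (x - π) x * (1 : Mat (l + k)) = 0 := fun x => by
      have := S.vanish_pi (x - π); rw [sub_add_cancel] at this; rw [this, Matrix.zero_mul]
    have e : ∀ x, S.A (x - π) (x + s) = S.A x (x + s) * S.A' (x - π) x := fun x => by
      simpa using F.agree (x - π) x 1 (hzero x) (x + s)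
    have hne : ∀ x, (S.A' (x - π) x).det ≠ 0 := fun x hx => by
      have h := det_ne_lag F (b := x - π) (y := x + s) (by rwa [show x + s - (x - π) = s + π by ring])
      rw [e x, det_mul, hx, mul_zero] at h
      exact h rfl
    have hc : Continuous fun x => logAbsDet (S.A' (x - π) x) := by
      refine Continuous.log ?_ (fun x => abs_ne_zero.2 (hne x))
      exact (continuous_id.matrix_det.comp
        (F.cont_A'.comp (Continuous.prodMk (by fun_prop) continuous_id))).abs
    have hf : meanLog S (s + π) = mean fun x => logAbsDet (S.A (x - π) (x + s)) := by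
      rw [meanLog]
      congr 1; funext x
      rw [← add_assoc]
      conv_lhs => arg 1; rw [show x = x - π + π by ring]
      rw [show x - π + π + s + π = (x + s) + π by ring, F.periodic_A, logAbsDet, det_conj_hol,
        ← logAbsDet]
    rw [hf, meanLog, ← mean_add (continuous_logAbsDet_line F hs) hc]
    congr 1; funext x
    rw [e x, logAbsDet, det_mul, abs_mul,
      log_mul (abs_ne_zero.2 (det_ne_lag F (by simpa using hs))) (abs_ne_zero.2 (hne x))]
    rfl
  have a := key (-(π / 4)) (good_neg (good_of_pos (by linarith) (by linarith)))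
    (by rw [show -(π / 4) + π = π - π / 4 by ring]; exact good_pi_sub (by linarith) (by linarith))
  have b := key (-(π - π / 4)) (good_neg (good_pi_sub (by linarith) (by linarith)))
    (by rw [show -(π - π / 4) + π = π / 4 by ring]; exact good_of_pos (by linarith) (by linarith))
  rw [meanLog_neg F, show -(π / 4) + π = π - π / 4 by ring] at a
  rw [meanLog_neg F, show -(π - π / 4) + π = π / 4 by ring] at b
  have c := key (-t) (good_neg (good_of_pos h1 h2))
    (by rw [show -t + π = π - t by ring]; exact good_pi_sub h1 h2)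
  rw [meanLog_neg F, show -t + π = π - t by ring] at c
  linarith

theorem meanGram_sub_half (F : JacobiFacts S) (K : KernelFacts S) (t : ℝ) :
    meanGram S (t - π / 2) = meanGram S t := by
  rw [meanGram, meanGram, ← mean_shift (periodic_logGram F K (t - π / 2)) (π / 2)]
  congr 1; funext x
  rw [show x + π / 2 + (t - π / 2) = x + t by ring, ← K.shift]

end Vale.Agent.P231
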