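import Vale.Agent.P231.Mean.Basic

/-!
Continuity of the Gram and cofactor terms along a period, and linear mean identities.
-/

namespace Vale.Agent.P231

open Matrix Real Set

variable {n l k : ℕ} {S : JacobiSystem l k}

theorem mean_lin2 {f g : ℝ → ℝ} (hf : Continuous f) (hg : Continuous g) (a b c : ℝ) :
    mean (fun x => a * f x + b * g x + c) = a * mean f + b * mean g + c := by
  rw [mean_add (f := fun x => a * f x + b * g x) (g := fun _ => c) (by fun_prop) (by fun_prop),
    mean_add (f := fun x => a * f x) (g := fun x => b * g x) (by fun_prop) (by fun_prop),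
    mean_const_mul, mean_const_mul, mean_const]

/-- The matrix whose determinant defines `logGram` is positive definite. -/
theorem gram_posDef {M P : Mat n} (hM : M.det ≠ 0) (hP : P * P = P) (hPt : Pᵀ = P) :
    (P * (Mᵀ * M) * P + (1 - P)).PosDef := by
  have hN : P * (Mᵀ * M) * P + (1 - P) = (M * P)ᵀ * (M * P) + (1 - P)ᵀ * (1 - P) := by
    have e1 : (1 - P)ᵀ = 1 - P := by rw [transpose_sub, transpose_one, hPt]
    have e2 : (1 - P) * (1 - P) = 1 - P := by
      rw [Matrix.sub_mul, Matrix.one_mul, Matrix.mul_sub, Matrix.mul_one, hP, sub_self, sub_zero]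
    rw [e1, e2, transpose_mul, hPt]; simp only [Matrix.mul_assoc]
  rw [hN]
  refine Matrix.PosDef.of_dotProduct_mulVec_pos ?_ fun v hv => ?_
  · rw [IsHermitian, conjTranspose_eq_transpose_of_trivial]
    simp [transpose_add, transpose_mul]
  · rw [star_trivial, add_mulVec, dotProduct_add]
    have q : ∀ B : Mat n, v ⬝ᵥ (Bᵀ * B) *ᵥ v = (B *ᵥ v) ⬝ᵥ (B *ᵥ v) := fun B => by
      rw [← mulVec_mulVec, dotProduct_mulVec, vecMul_transpose]
    rw [q, q]
    have n1 : 0 ≤ (M * P) *ᵥ v ⬝ᵥ (M * P) *ᵥ v :=
      Finset.sum_nonneg fun i _ => mul_self_nonneg _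
    have n2 : 0 ≤ (1 - P) *ᵥ v ⬝ᵥ (1 - P) *ᵥ v :=
      Finset.sum_nonneg fun i _ => mul_self_nonneg _
    by_contra hle
    have z1 := dotProduct_self_eq_zero.1 (le_antisymm (by linarith) n1)
    have z2 := dotProduct_self_eq_zero.1 (le_antisymm (by linarith) n2)
    rw [sub_mulVec, one_mulVec, sub_eq_zero] at z2
    rw [← mulVec_mulVec, ← z2] at z1
    exact hv (eq_zero_of_mulVec_eq_zero hM z1)

/-- The matrix whose determinant defines `logCof` is positive definite. -/
theorem cof_posDef {M P : Mat n} {l k : ℕ} (hn : n = l + k) (hP : IsKerProj l M P)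
    (hr : M.rank = k) : (Mᵀ * M + P).PosDef := by
  obtain ⟨hPP, hPt, hMP, htr⟩ := hP
  have hN : Mᵀ * M + P = Mᵀ * M + Pᵀ * P := by rw [hPt, hPP]
  rw [hN]
  refine Matrix.PosDef.of_dotProduct_mulVec_pos ?_ fun v hv => ?_
  · rw [IsHermitian, conjTranspose_eq_transpose_of_trivial]
    simp [transpose_add, transpose_mul]
  · rw [star_trivial, add_mulVec, dotProduct_add]
    have q : ∀ B : Mat n, v ⬝ᵥ (Bᵀ * B) *ᵥ v = (B *ᵥ v) ⬝ᵥ (B *ᵥ v) := fun B => by
      rw [← mulVec_mulVec, dotProduct_mulVec, vecMul_transpose]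
    rw [q, q]
    have n1 : 0 ≤ M *ᵥ v ⬝ᵥ M *ᵥ v := Finset.sum_nonneg fun i _ => mul_self_nonneg _
    have n2 : 0 ≤ P *ᵥ v ⬝ᵥ P *ᵥ v := Finset.sum_nonneg fun i _ => mul_self_nonneg _
    by_contra hle
    have z1 := dotProduct_self_eq_zero.1 (le_antisymm (by linarith) n1)
    have z2 := dotProduct_self_eq_zero.1 (le_antisymm (by linarith) n2)
    -- the kernel of `M` is the range of `P`
    have hsub : LinearMap.range P.mulVecLin ≤ LinearMap.ker M.mulVecLin := by
      rintro w ⟨u, rfl⟩
      simp [mulVec_mulVec, hMP]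
    have hrkP : Module.finrank ℝ (LinearMap.range P.mulVecLin) = l := by
      have hidem : IsIdempotentElem P.toLin' := by
        unfold IsIdempotentElem
        rw [Module.End.mul_eq_comp, ← Matrix.toLin'_mul, hPP]
      have e := (LinearMap.IsIdempotentElem.isProj_range _ hidem).trace
      rw [Matrix.trace_toLin'_eq, htr] at e
      have : (l : ℝ) = ((Module.finrank ℝ (LinearMap.range P.toLin') : ℕ) : ℝ) := e
      have h' := Nat.cast_injective this
      rw [h']
      rfl
    have hker : Module.finrank ℝ (LinearMap.ker M.mulVecLin) = l := by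
      have := LinearMap.finrank_range_add_finrank_ker M.mulVecLin
      rw [Module.finrank_fin_fun] at this
      have hr' : Module.finrank ℝ (LinearMap.range M.mulVecLin) = k := hr
      omega
    have heq := Submodule.eq_of_le_of_finrank_le hsub (by omega)
    have : v ∈ LinearMap.range P.mulVecLin := by rw [heq]; simpa using z1
    obtain ⟨u, hu⟩ := this
    rw [mulVecLin_apply] at hu
    apply hv
    rw [← hu, ← hPP, ← mulVec_mulVec, hu, z2]

theorem continuousAt_logGram_comp {α : Type*} [TopologicalSpace α] {P M : α → Mat n} {a : α}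
    (hP : ContinuousAt P a) (hM : ContinuousAt M a) (hd : (M a).det ≠ 0)
    (hPP : P a * P a = P a) (hPt : (P a)ᵀ = P a) :
    ContinuousAt (fun x => logGram (P x) (M x)) a := by
  have hc : Continuous fun q : Mat n × Mat n => (q.1 * (q.2ᵀ * q.2) * q.1 + (1 - q.1)).det :=
    Continuous.matrix_det (((continuous_fst.matrix_mul
      (continuous_snd.matrix_transpose.matrix_mul continuous_snd)).matrix_mul continuous_fst).add
      (continuous_const.sub continuous_fst))
  exact ((hc.continuousAt.comp (hP.prodMk hM)).log (gram_posDef hd hPP hPt).det_pos.ne').div_const 2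

theorem continuous_logGram_line (F : JacobiFacts S) (K : KernelFacts S) {t : ℝ} (ht : t ∈ Good) :
    Continuous fun x => logGram (kerProj S x) (S.A x (x + t)) :=
  continuous_iff_continuousAt.2 fun x =>
    continuousAt_logGram_comp K.cont.continuousAt
      (ContinuousAt.comp (g := fun p : ℝ × ℝ => S.A p.1 p.2) (f := fun x => (x, x + t))
        F.cont_A.continuousAt (by fun_prop))
      (det_ne_lag F (by simpa using ht)) (K.spec x).1 (K.spec x).2.1

theorem continuous_logCof_line (F : JacobiFacts S) (K : KernelFacts S) :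
    Continuous fun x => logCof (kerProj S x) (S.A x (x + π / 2)) := by
  have hA : Continuous fun x => S.A x (x + π / 2) := F.cont_A.comp (Continuous.prodMk continuous_id (by fun_prop))
  exact ((((hA.matrix_transpose.matrix_mul hA).add K.cont).matrix_det).log
    fun x => (cof_posDef rfl (K.spec x) (S.rank_half x)).det_pos.ne').div_const 2

end Vale.Agent.P231
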