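import Vale.Agent.P231.Mean.Cont
import Vale.Agent.P231.MatrixSpec

/-!
The four averaged inequalities.
-/

namespace Vale.Agent.P231

open Matrix Real Set

variable {n l k : ℕ} {S : JacobiSystem l k}

theorem mean_lin {m : ℕ} {f : Fin m → ℝ → ℝ} (hf : ∀ i, Continuous (f i)) (a : Fin m → ℝ) (c : ℝ) :
    mean (fun x => ∑ i, a i * f i x + c) = ∑ i, a i * mean (f i) + c := by
  rw [mean_add (f := fun x => ∑ i, a i * f i x) (g := fun _ => c) (by fun_prop) (by fun_prop),
    mean_const]
  congr 1
  simp only [mean]
  rw [intervalIntegral.integral_finsetSum fun i _ => ((hf i).const_mul _).intervalIntegrable _ _,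
    Finset.sum_div]
  refine Finset.sum_congr rfl fun i _ => ?_
  rw [intervalIntegral.integral_const_mul, mul_div_assoc]

theorem trace_one_sub_mul_le {P D : Mat n} (hP : P * P = P) (hPt : Pᵀ = P)
    (hD : D.PosSemidef) : ((1 - P) * D).trace ≤ D.trace := by
  have h := (hD.conjTranspose_mul_mul_same P).trace_nonneg
  rw [conjTranspose_eq_transpose_of_trivial, hPt, trace_mul_comm, ← Matrix.mul_assoc, hP] at h
  rw [Matrix.sub_mul, Matrix.one_mul, trace_sub]
  linarith

theorem logCof_neg (P M : Mat n) : logCof P (-M) = logCof P M := by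
  simp [logCof]

/-- Split lower bound for the mean of `|A⁻¹|²`. -/
theorem meanInv_ge (hI : InvGramGoal) (F : JacobiFacts S) (K : KernelFacts S) {t α β : ℝ}
    (ht : t ∈ Good) (hα : 0 < α) (hβ : 0 < β) :
    α * (l - 2 * meanGram S t - l * log α)
      + β * (k + 2 * meanGram S t - 2 * meanLog S t - k * log β) ≤ meanInv S t := by
  have h1 := continuous_logGram_line F K ht
  have h2 := continuous_logAbsDet_line F ht
  have key := mean_mono (f := fun x => α * (l - 2 * logGram (kerProj S x) (S.A x (x + t)) - l * log α)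
      + β * (k + 2 * logGram (kerProj S x) (S.A x (x + t)) - 2 * logAbsDet (S.A x (x + t))
        - k * log β))
    (g := fun x => invGram (S.A x (x + t))) (by fun_prop) (continuous_invGram_line F ht) fun x =>
    (hI l k (S.A x (x + t)) (kerProj S x) α β rfl (det_ne_lag F (by simpa using ht)) (K.spec x).1
      (K.spec x).2.1 (K.spec x).2.2.2 hα hβ).1
  have e : (fun x => α * (l - 2 * logGram (kerProj S x) (S.A x (x + t)) - l * log α)
      + β * (k + 2 * logGram (kerProj S x) (S.A x (x + t)) - 2 * logAbsDet (S.A x (x + t))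
        - k * log β)) = fun x => (2 * (β - α)) * logGram (kerProj S x) (S.A x (x + t))
      + (-(2 * β)) * logAbsDet (S.A x (x + t))
      + (α * (l - l * log α) + β * (k - k * log β)) := by funext x; ring
  rw [e, mean_lin2 h1 h2] at key
  show _ ≤ mean fun x => invGram (S.A x (x + t))
  have r1 : mean (fun x => logGram (kerProj S x) (S.A x (x + t))) = meanGram S t := rfl
  have r2 : mean (fun x => logAbsDet (S.A x (x + t))) = meanLog S t := rfl
  rw [r1, r2] at key
  linarith

theorem transpose_ricc_mul {y b : ℝ} (F : JacobiFacts S) (h : (S.A b y).det ≠ 0) :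
    (S.A b y)ᵀ * ricc S b y = (S.A' b y)ᵀ := by
  conv_lhs => rw [← F.ricc_symm b y h]
  rw [← transpose_mul, ricc, Matrix.mul_assoc, nonsing_inv_mul _ (isUnit_iff_ne_zero.2 h),
    Matrix.mul_one]

theorem ricc_mul {y b : ℝ} (h : (S.A b y).det ≠ 0) : ricc S b y * S.A b y = S.A' b y := by
  rw [ricc, Matrix.mul_assoc, nonsing_inv_mul _ (isUnit_iff_ne_zero.2 h), Matrix.mul_one]

theorem rank_neg' (M : Mat n) : (-M).rank = M.rank := by
  rw [show -M = (-1 : Mat n) * M by simp, rank_mul_eq_right_of_isUnit_det]
  simp [det_neg]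

/-- The straddle inequality, averaged. -/
theorem meanStraddle_le (hS : StraddleGoal) (hC : CofTransposeGoal) (F : JacobiFacts S)
    (K : KernelFacts S) {t γ : ℝ} (h1 : 0 < t) (h2 : t < π / 2) (hγ : 0 < γ) :
    meanCof S + 2 * meanGram S t - meanLog S t - meanLog S (π / 2 - t)
      ≤ (meanRicc S t + meanRicc S (π / 2 - t)) / γ - k + k * log γ := by
  have gt := good_of_pos h1 h2
  have gr : π / 2 - t ∈ Good := good_of_pos (by linarith) (by linarith)
  have gr' : t - π / 2 ∈ Good := by simpa using good_neg gr
  -- the pointwise inequality, based at `a = x`, evaluated at `x + t`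
  have point : ∀ x, logCof (kerProj S x) (S.A x (x + π / 2))
      + logGram (kerProj S x) (S.A x (x + t))
      + logGram (kerProj S (x + π / 2)) (S.A (x + π / 2) (x + π / 2 + (t - π / 2)))
      - logAbsDet (S.A x (x + t)) - logAbsDet (S.A (x + π / 2) (x + π / 2 + (t - π / 2)))
      ≤ ((ricc S x (x + t)).trace - (ricc S (x + π / 2) (x + π / 2 + (t - π / 2))).trace) / γ
        - k + k * log γ := by
    intro x
    have ey : x + π / 2 + (t - π / 2) = x + t := by ring
    rw [ey]
    have da : (S.A x (x + t)).det ≠ 0 := det_ne_lag F (by simpa using gt)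
    have db : (S.A (x + π / 2) (x + t)).det ≠ 0 :=
      det_ne_lag F (by rwa [show x + t - (x + π / 2) = t - π / 2 by ring])
    have hD : (ricc S x (x + t) - ricc S (x + π / 2) (x + t)).PosSemidef := by
      simpa using F.straddle_psd (x + t) t h1 h2
    have hZ : (S.A x (x + t))ᵀ * (ricc S x (x + t) - ricc S (x + π / 2) (x + t))
        * S.A (x + π / 2) (x + t) = S.A (x + π / 2) x := by
      rw [Matrix.mul_sub, Matrix.sub_mul, transpose_ricc_mul F da, Matrix.mul_assoc,
        ricc_mul db, ← neg_sub, F.wronskian, neg_neg]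
    have hb0 : S.A (x + π / 2) x * kerProj S (x + π / 2) = 0 := by simpa using K.back (x + π / 2)
    obtain ⟨p1, p2, p3, p4⟩ := K.spec x
    obtain ⟨q1, q2, -, q4⟩ := K.spec (x + π / 2)
    have ha0 : kerProj S x * S.A (x + π / 2) x = 0 := by
      rw [F.swap x (x + π / 2), Matrix.mul_neg, neg_eq_zero]
      calc kerProj S x * (S.A x (x + π / 2))ᵀ = (S.A x (x + π / 2) * kerProj S x)ᵀ := by
            rw [transpose_mul, p2]
        _ = 0 := by rw [p3, transpose_zero]
    have hrk : (S.A (x + π / 2) x).rank = k := by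
      rw [F.swap x (x + π / 2), rank_neg', rank_transpose, S.rank_half]
    have main := hS l k (S.A x (x + t)) (S.A (x + π / 2) (x + t)) _ (S.A (x + π / 2) x) (kerProj S x)
      (kerProj S (x + π / 2)) γ rfl da db hD hZ p1 p2 p4 q1 q2 q4 hb0 ha0 hrk hγ
    rw [hC l k _ _ _ rfl p1 p2 p4 q1 q2 q4 hb0 ha0 hrk, trace_sub] at main
    have : (S.A (x + π / 2) x)ᵀ = -S.A x (x + π / 2) := by
      rw [F.swap x (x + π / 2), transpose_neg, transpose_transpose]
    rw [this, logCof_neg] at main
    exact main
  have c0 := continuous_logCof_line F K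
  have c1 := continuous_logGram_line F K gt
  have c2 := (continuous_logGram_line F K gr').comp (continuous_id.add continuous_const (f := fun x : ℝ => x) (g := fun _ => π / 2))
  have c3 := continuous_logAbsDet_line F gt
  have c4 := (continuous_logAbsDet_line F gr').comp (continuous_id.add continuous_const (f := fun x : ℝ => x) (g := fun _ => π / 2))
  have c5 := continuous_ricc_line F gt
  have c6 := (continuous_ricc_line F gr').comp (continuous_id.add continuous_const (f := fun x : ℝ => x) (g := fun _ => π / 2))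
  have c56 : Continuous fun x => (ricc S x (x + t)).trace
      - (ricc S (x + π / 2) (x + π / 2 + (t - π / 2))).trace := c5.sub c6
  simp only [Function.comp_def, id_eq, Pi.add_apply] at c2 c4 c6
  have key := mean_mono
    (f := fun x => ∑ i, (![1, 1, 1, -1, -1, -γ⁻¹, γ⁻¹] : Fin 7 → ℝ) i *
      (![fun x => logCof (kerProj S x) (S.A x (x + π / 2)),
        fun x => logGram (kerProj S x) (S.A x (x + t)),
        fun x => logGram (kerProj S (x + π / 2)) (S.A (x + π / 2) (x + π / 2 + (t - π / 2))),
        fun x => logAbsDet (S.A x (x + t)),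
        fun x => logAbsDet (S.A (x + π / 2) (x + π / 2 + (t - π / 2))),
        fun x => (ricc S x (x + t)).trace,
        fun x => (ricc S (x + π / 2) (x + π / 2 + (t - π / 2))).trace] : Fin 7 → ℝ → ℝ) i x
        + ((k : ℝ) - k * log γ))
    (g := fun _ => 0) (Continuous.add (continuous_finsetSum _ fun i _ => Continuous.const_mul (by fin_cases i <;> assumption) _)
      continuous_const) continuous_const
    (fun x => by
      have := point x
      rw [show ∀ a b : ℝ, (a - b) / γ = γ⁻¹ * a - γ⁻¹ * b from fun a b => by ring] at this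
      simp only [Fin.sum_univ_seven, Matrix.cons_val]
      linarith)
  rw [mean_const, mean_lin (by intro i; fin_cases i <;> assumption)] at key
  simp only [Fin.sum_univ_seven, Matrix.cons_val,
    mean_shift (periodic_logAbsDet F (t - π / 2)) (π / 2),
    mean_shift (periodic_logGram F K (t - π / 2)) (π / 2),
    mean_shift (periodic_ricc F (t - π / 2)) (π / 2)] at key
  have e1 : mean (fun x => logGram (kerProj S x) (S.A x (x + (t - π / 2)))) = meanGram S t :=
    meanGram_sub_half F K t
  have e2 : mean (fun x => logAbsDet (S.A x (x + (t - π / 2)))) = meanLog S (π / 2 - t) := by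
    rw [show t - π / 2 = -(π / 2 - t) by ring]; exact meanLog_neg F _
  have e3 : mean (fun x => (ricc S x (x + (t - π / 2))).trace) = -meanRicc S (π / 2 - t) := by
    rw [show t - π / 2 = -(π / 2 - t) by ring]; exact meanRicc_neg F gr
  rw [e1, e2, e3] at key
  have r0 : mean (fun x => logCof (kerProj S x) (S.A x (x + π / 2))) = meanCof S := rfl
  have r1 : mean (fun x => logGram (kerProj S x) (S.A x (x + t))) = meanGram S t := rfl
  have r2 : mean (fun x => logAbsDet (S.A x (x + t))) = meanLog S t := rfl
  have r3 : mean (fun x => (ricc S x (x + t)).trace) = meanRicc S t := rfl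
  rw [r0, r1, r2, r3] at key
  rw [show ∀ a b : ℝ, (a + b) / γ = γ⁻¹ * a + γ⁻¹ * b from fun a b => by ring]
  linarith

/-- The two one-sided inequalities, averaged. -/
theorem meanSide_le (hS : SideGoal) (F : JacobiFacts S) (K : KernelFacts S) {t g1 g2 : ℝ}
    (h1 : 0 < t) (h2 : t < π / 2) (hg1 : 0 < g1) (hg2 : 0 < g2) :
    g1 * (meanLog S (π / 2 - t) - meanLog S t - meanCof S + k - k * log g1)
      + g2 * (meanLog S t - meanLog S (π / 2 - t) - meanCof S + k - k * log g2)
      ≤ meanRicc S t + meanRicc S (π / 2 - t) := by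
  have gt := good_of_pos h1 h2
  have gr : π / 2 - t ∈ Good := good_of_pos (by linarith) (by linarith)
  have gr' : t - π / 2 ∈ Good := by simpa using good_neg gr
  have gp : t - π ∈ Good := by simpa using good_neg (good_pi_sub h1 h2)
  -- based at `a₀ = x`, evaluated at `x + π / 2`; `b₁ = x + π/2 - t`, `b₂ = x + π - t`
  have point : ∀ x,
      g1 * (logAbsDet (S.A (x + (π / 2 - t)) (x + (π / 2 - t) + (t - π / 2)))
          - logAbsDet (S.A (x + (π / 2 - t)) (x + (π / 2 - t) + t))
          - logCof (kerProj S x) (S.A x (x + π / 2)) + k - k * log g1)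
        + g2 * (logAbsDet (S.A (x + (π - t)) (x + (π - t) + (t - π)))
          - logAbsDet (S.A (x + (π - t)) (x + (π - t) + (t - π / 2)))
          - logCof (kerProj S x) (S.A x (x + π / 2)) + k - k * log g2)
      ≤ (ricc S (x + (π / 2 - t)) (x + (π / 2 - t) + t)).trace
        - (ricc S (x + (π - t)) (x + (π - t) + (t - π / 2))).trace := by
    intro x
    set b1 := x + (π / 2 - t) with hb1
    set b2 := x + (π - t) with hb2
    rw [show b1 + (t - π / 2) = x by rw [hb1]; ring, show b1 + t = x + π / 2 by rw [hb1]; ring,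
      show b2 + (t - π) = x by rw [hb2]; ring, show b2 + (t - π / 2) = x + π / 2 by rw [hb2]; ring]
    set y := x + π / 2 with hy
    have d1 : (S.A b1 y).det ≠ 0 := det_ne_lag F (by rwa [show y - b1 = t by rw [hb1, hy]; ring])
    have d2 : (S.A b2 y).det ≠ 0 :=
      det_ne_lag F (by rwa [show y - b2 = t - π / 2 by rw [hb2, hy]; ring])
    have e1' : (S.A b1 x).det ≠ 0 :=
      det_ne_lag F (by rwa [show x - b1 = t - π / 2 by rw [hb1]; ring])
    have e2' : (S.A b2 x).det ≠ 0 := det_ne_lag F (by rwa [show x - b2 = t - π by rw [hb2]; ring])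
    have hN : ∀ b, (S.A b y).det ≠ 0 →
        (S.A x y)ᵀ * ricc S b y - (S.A' x y)ᵀ = -S.A b x * (S.A b y)⁻¹ := by
      intro b hb
      rw [← F.wronskian x b y, Matrix.sub_mul, Matrix.mul_assoc, Matrix.mul_assoc,
        mul_nonsing_inv _ (isUnit_iff_ne_zero.2 hb), Matrix.mul_one, ← ricc]
    have hdet : ∀ b, (S.A b y).det ≠ 0 → (S.A b x).det ≠ 0 →
        ((S.A x y)ᵀ * ricc S b y - (S.A' x y)ᵀ).det ≠ 0 ∧
        logAbsDet ((S.A x y)ᵀ * ricc S b y - (S.A' x y)ᵀ)
          = logAbsDet (S.A b x) - logAbsDet (S.A b y) := by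
      intro b hb hb'
      rw [hN b hb, logAbsDet, det_mul, det_nonsing_inv, Ring.inverse_eq_inv', det_neg]
      refine ⟨by simp [hb, hb'], ?_⟩
      rw [abs_mul, abs_mul, abs_pow, abs_neg, abs_one, one_pow, one_mul, abs_inv,
        log_mul (abs_ne_zero.2 hb') (inv_ne_zero (abs_ne_zero.2 hb)), log_inv]
      rfl
    have s1 := F.side_fwd y t h1 h2
    have s2 := F.side_bwd y t h1 h2
    rw [show y - π / 2 = x by rw [hy]; ring] at s1 s2
    rw [show y - t = b1 by rw [hb1, hy]; ring] at s1
    rw [show y - t + π / 2 = b2 by rw [hb2, hy]; ring] at s2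
    have hsymm : ((S.A x y)ᵀ * S.A' x y)ᵀ = (S.A x y)ᵀ * S.A' x y := by
      have := F.wronskian x x y
      rw [(S.init x).1, neg_zero, sub_eq_zero] at this
      rw [transpose_mul, transpose_transpose, ← this]
    obtain ⟨p1, p2, p3, p4⟩ := K.spec x
    obtain ⟨q1, q2, -, q4⟩ := K.spec y
    have hleft : kerProj S y * S.A x y = 0 := by
      have := K.left y
      rwa [show y - π / 2 = x by rw [hy]; ring] at this
    have main := hS l k (S.A x y) (S.A' x y) (kerProj S x) (kerProj S y) (ricc S b1 y) (ricc S b2 y)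
      g1 g2 rfl (S.rank_half x) p1 p2 p4 p3 q1 q2 q4 hleft (K.isometry x) (K.image x) hsymm
      (F.ricc_symm _ _ d1) (F.ricc_symm _ _ d2) (hdet b1 d1 e1').1 (hdet b2 d2 e2').1 s1 s2
      hg1 hg2
    rw [(hdet b1 d1 e1').2, (hdet b2 d2 e2').2] at main
    have hD : (ricc S b1 y - ricc S b2 y).PosSemidef := by
      have := F.straddle_psd y t h1 h2
      rwa [show y - t = b1 by rw [hb1, hy]; ring,
        show b1 + π / 2 = b2 by rw [hb1, hb2]; ring] at this
    have := main.trans (trace_one_sub_mul_le q1 q2 hD)
    rwa [trace_sub] at this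
  let p1 : ℝ → ℝ := fun x => x + (π / 2 - t)
  let p2 : ℝ → ℝ := fun x => x + (π - t)
  have hp1 : Continuous p1 := continuous_id.add continuous_const
  have hp2 : Continuous p2 := continuous_id.add continuous_const
  have c0 := continuous_logCof_line F K
  have c1 := (continuous_logAbsDet_line F gr').comp hp1
  have c2 := (continuous_logAbsDet_line F gt).comp hp1
  have c3 := (continuous_logAbsDet_line F gp).comp hp2
  have c4 := (continuous_logAbsDet_line F gr').comp hp2
  have c5 := (continuous_ricc_line F gt).comp hp1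
  have c6 := (continuous_ricc_line F gr').comp hp2
  simp only [Function.comp_def, p1, p2] at c1 c2 c3 c4 c5 c6
  have key := mean_mono
    (f := fun x => ∑ i, (![g1, -g1, -(g1 + g2), g2, -g2, -1, 1] : Fin 7 → ℝ) i *
      (![fun x => logAbsDet (S.A (x + (π / 2 - t)) (x + (π / 2 - t) + (t - π / 2))),
        fun x => logAbsDet (S.A (x + (π / 2 - t)) (x + (π / 2 - t) + t)),
        fun x => logCof (kerProj S x) (S.A x (x + π / 2)),
        fun x => logAbsDet (S.A (x + (π - t)) (x + (π - t) + (t - π))),
        fun x => logAbsDet (S.A (x + (π - t)) (x + (π - t) + (t - π / 2))),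
        fun x => (ricc S (x + (π / 2 - t)) (x + (π / 2 - t) + t)).trace,
        fun x => (ricc S (x + (π - t)) (x + (π - t) + (t - π / 2))).trace] : Fin 7 → ℝ → ℝ) i x
        + (g1 * (k - k * log g1) + g2 * (k - k * log g2)))
    (g := fun _ => 0) (Continuous.add (continuous_finsetSum _ fun i _ => Continuous.const_mul (by fin_cases i <;> assumption) _)
      continuous_const) continuous_const
    (fun x => by
      have := point x
      simp only [Fin.sum_univ_seven, Matrix.cons_val]
      linarith)
  rw [mean_const, mean_lin (by intro i; fin_cases i <;> assumption)] at key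
  simp only [Fin.sum_univ_seven, Matrix.cons_val,
    mean_shift (periodic_ricc F t) (π / 2 - t),
    mean_shift (periodic_ricc F (t - π / 2)) (π - t),
    mean_shift (periodic_logAbsDet F (t - π / 2)) (π / 2 - t),
    mean_shift (periodic_logAbsDet F t) (π / 2 - t),
    mean_shift (periodic_logAbsDet F (t - π)) (π - t),
    mean_shift (periodic_logAbsDet F (t - π / 2)) (π - t)] at key
  have a1 : mean (fun x => logAbsDet (S.A x (x + (t - π / 2)))) = meanLog S (π / 2 - t) := by
    rw [show t - π / 2 = -(π / 2 - t) by ring]; exact meanLog_neg F _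
  have a2 : mean (fun x => logAbsDet (S.A x (x + (t - π)))) = meanLog S t := by
    rw [show t - π = -(π - t) by ring]; exact (meanLog_neg F _).trans (meanLog_pi_sub F h1 h2)
  have a3 : mean (fun x => (ricc S x (x + (t - π / 2))).trace) = -meanRicc S (π / 2 - t) := by
    rw [show t - π / 2 = -(π / 2 - t) by ring]; exact meanRicc_neg F gr
  have r0 : mean (fun x => logCof (kerProj S x) (S.A x (x + π / 2))) = meanCof S := rfl
  have r2 : mean (fun x => logAbsDet (S.A x (x + t))) = meanLog S t := rfl
  have r3 : mean (fun x => (ricc S x (x + t)).trace) = meanRicc S t := rfl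
  rw [a1, a2, a3, r0, r2, r3] at key
  linarith

end Vale.Agent.P231
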